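import Vale.Agent.P277Z.Cvx.Poly

/-!
# P277, non-vanishing and the polytope of effective adjoint classes: the abstract layer

`DM` is the shadow of a smooth projective model: prime divisors, real classes, the canonical class,
the ample cone, simple normal crossings. `CM` adds the function field in the compact case.
-/

noncomputable section

namespace P277Z.S5

open Set

/-- prime divisors and their real linear equivalence classes -/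
structure DM where
  Cl : Type
  [acg : AddCommGroup Cl]
  [mod : Module ℝ Cl]
  Pr : Type
  cls : Pr → Cl
  K : Cl
  Amp : Set Cl
  Snc : Set Pr → Prop

attribute [instance] DM.acg DM.mod

namespace DM

variable (X : DM)

/-- the class of a real divisor -/
def c : (X.Pr →₀ ℝ) →ₗ[ℝ] X.Cl := Finsupp.linearCombination ℝ X.cls

/-- the class of an integral divisor -/
def cz : (X.Pr →₀ ℤ) →+ X.Cl := (Finsupp.linearCombination ℤ X.cls).toAddMonoidHom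

/-- the class of `∑ x i • f i` -/
def dv {ι : Type} [Fintype ι] (f : ι → X.Pr) : (ι → ℝ) →ₗ[ℝ] X.Cl :=
  Fintype.linearCombination ℝ fun i => X.cls (f i)

/-- the real linear system -/
def Lin (D : X.Cl) : Set (X.Pr →₀ ℝ) := {G | 0 ≤ G ∧ X.c G = D}

/-- effective classes -/
def Eff (D : X.Cl) : Prop := (X.Lin D).Nonempty

/-- pseudo-effective classes -/
def Psef (D : X.Cl) : Prop := ∀ A ∈ X.Amp, X.Eff (D + A)

/-- the asymptotic order of `D` along `S` is zero -/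
def Z (D : X.Cl) (S : X.Pr) : Prop := ∀ A ∈ X.Amp, ∀ η : ℝ, 0 < η → ∃ G ∈ X.Lin (D + A), G S ≤ η

/-- a family of distinct prime divisors with simple normal crossings -/
def Fam {ι : Type} (f : ι → X.Pr) : Prop := Function.Injective f ∧ X.Snc (range f)

/-- the cone over the adjoint classes with boundary in `f` -/
def AdjC {ι : Type} [Fintype ι] (f : ι → X.Pr) (D : X.Cl) : Prop :=
  ∃ d : ℝ, 0 < d ∧ ∃ A ∈ X.Amp, ∃ B : ι → ℝ, B ∈ Icc (0 : ι → ℝ) 1 ∧ D = d • (X.K + A + X.dv f B)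

/-- the basic facts -/
structure Ok : Prop where
  surj : Function.Surjective X.c
  amp_ne : X.Amp.Nonempty
  amp_add : ∀ A ∈ X.Amp, ∀ A' ∈ X.Amp, A + A' ∈ X.Amp
  amp_smul : ∀ A ∈ X.Amp, ∀ t : ℝ, 0 < t → t • A ∈ X.Amp
  amp_open : ∀ A ∈ X.Amp, ∀ D, ∃ ε : ℝ, 0 < ε ∧ A + ε • D ∈ X.Amp
  amp_avoid : ∀ A ∈ X.Amp, ∀ T : Finset X.Pr, ∃ G ∈ X.Lin A, ∀ P ∈ T, G P = 0
  snc_mono : ∀ T T', T ⊆ T' → X.Snc T' → X.Snc T
  snc_empty : X.Snc ∅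
  rat : ∀ G : X.Pr →₀ ℝ, X.c G = 0 → ∀ l : ℝ →ₗ[ℚ] ℝ, X.c (G.mapRange l l.map_zero) = 0

/-- Cascini, Lazic, Theorem 4.3, local form with variable ample part -/
def T43 : Prop := ∀ (ι : Type) [Fintype ι] (f : ι → X.Pr), X.Fam f → ∀ (S : ι) (Θ : ι → ℝ),
  ∀ A ∈ X.Amp, Θ ∈ Icc (0 : ι → ℝ) 1 → Θ S = 1 → X.Z (X.K + A + X.dv f Θ) (f S) →
    X.Eff (X.K + A + X.dv f Θ) ∧ ∀ (τ : Type) [Fintype τ] (u : τ → X.Cl), ∃ δ : ℝ, 0 < δ ∧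
      ∀ x : τ → ℝ, ‖x‖ < δ → X.Z (X.K + A + X.dv f Θ + ∑ j, x j • u j) (f S) →
        X.Z (X.K + A + X.dv f Θ + (2 : ℝ) • ∑ j, x j • u j) (f S)

/-- non-vanishing -/
def NV : Prop := ∀ (ι : Type) [Fintype ι] (f : ι → X.Pr), X.Fam f → ∀ D, X.AdjC f D → X.Psef D →
  X.Eff D

/-- Theorem B -/
def ThB : Prop := ∀ (ι : Type) [Fintype ι] (f : ι → X.Pr), X.Fam f →
  ∀ (τ : Type) [Fintype τ] (u : τ → X.Pr →₀ ℤ) (P : Set (τ → ℝ)), Cvx.RatPolytope P →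
    (∀ x ∈ P, X.AdjC f (∑ j, x j • X.cz (u j))) →
    Cvx.RatPolytope {x ∈ P | X.Eff (∑ j, x j • X.cz (u j))}

/-- there is a non zero effective principal divisor -/
def Rel : Prop := ∃ T ∈ X.Lin 0, T ≠ 0

end DM

/-- `Y` is a modification of `X`; the total transform of `v` and the exceptional divisors `ex` are
members of the family `f` -/
structure Res (X Y : DM) {ι φ : Type} [Fintype ι] [Fintype φ] (v : ι → X.Pr) (f : φ → Y.Pr) where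
  pb : X.Cl →ₗ[ℝ] Y.Cl
  pbc : (ι → ℝ) →ₗ[ℝ] (φ → ℝ)
  /-- the relative canonical divisor -/
  kap : φ → ℝ
  e : φ → ℝ
  ex : Set φ
  fam : Y.Fam f
  pb_dv : ∀ B, pb (X.dv v B) = Y.dv f (pbc B)
  pbc_nonneg : ∀ B, 0 ≤ B → 0 ≤ pbc B
  K_eq : Y.K = pb X.K + Y.dv f kap
  kap_nonneg : 0 ≤ kap
  kap_off : ∀ i, i ∉ ex → kap i = 0
  lc : ∀ i, pbc 1 i ≤ 1 + kap i
  e_nonneg : 0 ≤ e
  e_off : ∀ i, i ∉ ex → e i = 0
  amp : ∀ A ∈ X.Amp, ∃ ε : ℝ, 0 < ε ∧ pb A - ε • Y.dv f e ∈ Y.Amp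
  nef : ∀ A ∈ X.Amp, ∀ A' ∈ Y.Amp, pb A + A' ∈ Y.Amp
  pull : ∀ D, X.Eff D → Y.Eff (pb D)
  push : ∀ D (x : φ → ℝ), (∀ i, i ∉ ex → x i = 0) → Y.Eff (pb D + Y.dv f x) → X.Eff D

/-- `γ` is the total transform of the effective divisor `G` -/
structure Res.Tot {X Y : DM} {ι φ : Type} [Fintype ι] [Fintype φ] {v : ι → X.Pr} {f : φ → Y.Pr}
    (R : Res X Y v f) (G : X.Pr →₀ ℝ) (γ : φ → ℝ) : Prop where
  nonneg : 0 ≤ γ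
  eq : R.pb (X.c G) = Y.dv f γ
  ne : G ≠ 0 → γ ≠ 0
  off : ∀ i, i ∉ R.ex → γ i = 0 ∨ ∃ P, γ i = G P

/-- a class of models of one dimension: basic facts, Theorem 4.3, log resolutions -/
structure Cls (G : DM → Prop) : Prop where
  ok : ∀ X, G X → X.Ok
  t43 : ∀ X, G X → X.T43
  hir : ∀ X, G X → ∀ (ι : Type) [Fintype ι] (v : ι → X.Pr), X.Fam v → ∀ G₁ G₂ : X.Pr →₀ ℝ,
    0 ≤ G₁ → 0 ≤ G₂ → ∃ Y, G Y ∧ ∃ (φ : Type) (_ : Fintype φ) (f : φ → Y.Pr) (R : Res X Y v f)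
      (γ₁ γ₂ : φ → ℝ), R.Tot G₁ γ₁ ∧ R.Tot G₂ γ₂

/-- a compact model: function field, sections, points -/
structure CM extends DM where
  Kf : Type
  [fld : Field Kf]
  [alg : Algebra ℂ Kf]
  H : (Pr →₀ ℤ) → Submodule ℂ Kf
  KZ : Pr →₀ ℤ
  Pt : Type
  /-- the functions that vanish at the point as sections of the divisor -/
  Vn : Pt → (Pr →₀ ℤ) → Submodule ℂ Kf
  /-- the linear system is nowhere an immersion -/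
  Dg : (Pr →₀ ℤ) → Submodule ℂ Kf → Prop

attribute [instance] CM.fld CM.alg

namespace CM

variable (X : CM)

/-- the number of sections -/
def h0 (M : X.Pr →₀ ℤ) : ℕ := Module.finrank ℂ (X.H M)

/-- base point free linear systems -/
def Bpf (M : X.Pr →₀ ℤ) (W : Submodule ℂ X.Kf) : Prop := W ≤ X.H M ∧ ∀ x, ¬ W ≤ X.Vn x M

/-- integral adjoint divisors with a klt boundary -/
def Adj (M : X.Pr →₀ ℤ) : Prop := ∃ (ι : Type) (_ : Fintype ι) (f : ι → X.Pr) (Δ : ι → ℝ),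
  ∃ A ∈ X.Amp, X.Fam f ∧ (∀ i, 0 ≤ Δ i ∧ Δ i < 1) ∧ X.cz M = X.K + X.dv f Δ + A

/-- integral divisors `K + S + Δ + A` -/
def AdjS (S : X.Pr) (M : X.Pr →₀ ℤ) : Prop :=
  ∃ (ι : Type) (_ : Fintype ι) (f : ι → X.Pr) (Δ : ι → ℝ) (i₀ : ι),
    ∃ A ∈ X.Amp, X.Fam f ∧ f i₀ = S ∧ Δ i₀ = 0 ∧ (∀ i, 0 ≤ Δ i ∧ Δ i < 1) ∧
      X.cz M = X.K + X.cls S + X.dv f Δ + A

/-- the basic facts in the compact case -/
structure Ok : Prop extends X.toDM.Ok where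
  ker : ∀ G, X.c G = 0 → G ∈ Submodule.span ℝ
    {G : X.Pr →₀ ℝ | ∃ M : X.Pr →₀ ℤ, (∀ D, X.h0 (D + M) = X.h0 D) ∧ ∀ P, G P = M P}
  KZ : X.cz X.KZ = X.K
  fin : ∀ M, FiniteDimensional ℂ (X.H M)
  mono : ∀ M M', M ≤ M' → X.H M ≤ X.H M'
  one : (1 : X.Kf) ∈ X.H 0
  mul : ∀ M M', ∀ a ∈ X.H M, ∀ b ∈ X.H M', a * b ∈ X.H (M + M')
  eff : ∀ M, X.H M ≠ ⊥ → X.Eff (X.cz M)
  sep : ∀ M P (a : X.Kf), a ≠ 0 → ∃ m : ℕ, a ∉ X.H (M - Finsupp.single P (m : ℤ))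
  pt : Nonempty X.Pt
  vn_mul : ∀ x M M', ∀ a ∈ X.H M, ∀ b ∈ X.H M', a ∈ X.Vn x M → a * b ∈ X.Vn x (M + M')
  exA : ∃ M, X.cz M ∈ X.Amp
  gg : ∀ H, X.cz H ∈ X.Amp → ∀ M, ∃ k₀ : ℕ, ∀ k : ℕ, k₀ ≤ k → X.Bpf (M + k • H) (X.H (M + k • H))
  nef : ∀ M W, X.Bpf M W → ∀ A ∈ X.Amp, A + X.cz M ∈ X.Amp

end CM

/-- `X'` is the smooth prime divisor `S` of `X` -/
structure Rst (X : CM) (S : X.Pr) (X' : CM) where
  r : (X.Pr →₀ ℤ) →+ (X'.Pr →₀ ℤ)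
  rc : X.Cl →ₗ[ℝ] X'.Cl
  /-- `rs k a` is the residue of `a t ^ k`, `t` a uniformiser of `S` -/
  rs : ℤ → X.Kf →ₗ[ℂ] X'.Kf
  p : X'.Pt → X.Pt
  cz_r : ∀ M, X'.cz (r M) = rc (X.cz M)
  amp : ∀ A ∈ X.Amp, rc A ∈ X'.Amp
  eff : ∀ D, ∀ G ∈ X.Lin D, G S = 0 → X'.Eff (rc D)
  mem : ∀ M, ∀ a ∈ X.H M, rs (M S) a ∈ X'.H (r M)
  ker : ∀ M, ∀ a ∈ X.H M, rs (M S) a = 0 ↔ a ∈ X.H (M - Finsupp.single S 1)
  mul : ∀ M M', ∀ a ∈ X.H M, ∀ b ∈ X.H M',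
    rs ((M + M') S) (a * b) = rs (M S) a * rs (M' S) b
  vn : ∀ y M, ∀ a ∈ X.H M, rs (M S) a ∈ X'.Vn y (r M) → a ∈ X.Vn (p y) M
  ext : ∀ M, X.AdjS S M → ∀ u ∈ X'.H (r M), ∃ a ∈ X.H M, rs (M S) a = u
  adj : ∀ M, X.AdjS S M → X'.Adj (r M)

/-- a smooth member `s 0 + … + s (k - 1)` of the linear system `W`, with equation `h` -/
structure Cut (G : CM → Prop) (X : CM) (M : X.Pr →₀ ℤ) (W : Submodule ℂ X.Kf) {ι : Type}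
    (f : ι → X.Pr) where
  k : ℕ
  s : Fin k → X.Pr
  Y : Fin k → CM
  R : ∀ j, Rst X (s j) (Y j)
  good : ∀ j, G (Y j)
  h : X.Kf
  h_mem : h ∈ W
  h_ne : h ≠ 0
  fam : X.Fam (Sum.elim f s)
  lin : ∀ D a, a ∈ X.H (D + M - ∑ j, Finsupp.single (s j) 1) ↔ ∃ b ∈ X.H D, a = h * b
  cls : X.cz M = ∑ j, X.cls (s j)
  ne : X.cz M ∈ X.Amp → 0 < k
  dg : X.Dg M W → ∀ j, (Y j).Dg ((R j).r M) (W.map ((R j).rs (M (s j))))

/-- a modification of compact models -/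
structure CRes (X Y : CM) {ι φ : Type} [Fintype ι] [Fintype φ] (v : ι → X.Pr) (f : φ → Y.Pr)
    extends Res X.toDM Y.toDM v f where
  pz : (X.Pr →₀ ℤ) →+ (Y.Pr →₀ ℤ)
  cz_pz : ∀ M, Y.cz (pz M) = pb (X.cz M)
  h0K : ∀ M, Y.h0 (Y.KZ + pz M) = X.h0 (X.KZ + M)
  dg : ∀ M, X.Bpf M (X.H M) → ∃ W, Y.Bpf (pz M) W ∧ ∀ i ∈ ex, ∀ (Y' : CM) (R : Rst Y (f i) Y'),
    Y'.Dg (R.r (pz M)) (W.map (R.rs (pz M (f i))))

/-- the compact models: `G n X` means that `X` has dimension `n` -/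
structure Geo (G : ℕ → CM → Prop) : Prop where
  ok : ∀ n X, G n X → X.Ok
  zero : ∀ X, G 0 X → IsEmpty X.Pr ∧ X.H 0 = ⊤ ∧ Module.finrank ℂ X.Kf = 1 ∧ ∀ M W, ¬ X.Dg M W
  rst : ∀ n X, G (n + 1) X → ∀ S, X.Snc {S} → ∃ X', G n X' ∧ Nonempty (Rst X S X')
  cut : ∀ n X, G (n + 1) X → ∀ M W, X.Bpf M W → ∀ (ι : Type) [Fintype ι] (f : ι → X.Pr),
    X.Fam f → Nonempty (Cut (G n) X M W f)
  hir : ∀ n X, G n X → ∀ (ι : Type) [Fintype ι] (v : ι → X.Pr), X.Fam v → ∀ G₁ : X.Pr →₀ ℝ,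
    0 ≤ G₁ → ∃ Y, G n Y ∧ ∃ (φ : Type) (_ : Fintype φ) (f : φ → Y.Pr) (R : CRes X Y v f)
      (γ : φ → ℝ), R.Tot G₁ γ

/-- sections with a high multiplicity at a very general point -/
def PT (G : DM → Prop) (n : ℕ) (X : CM) : Prop := ∀ s : ℕ, ∃ b : ℕ, ∀ M, b < X.h0 M →
  ∀ D : ℕ → X.Cl, (∀ l, X.Eff (D l)) → ∀ G₀ : X.Pr →₀ ℝ, 0 ≤ G₀ →
  ∀ (ι : Type) [Fintype ι] (v : ι → X.Pr), X.Fam v →
    ∃ Y, G Y ∧ ∃ (φ : Type) (_ : Fintype φ) (f : φ → Y.Pr) (R : Res X.toDM Y v f) (γ : φ → ℝ)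
      (i : φ), 0 ≤ γ ∧ R.pb (X.cz M + X.c G₀) = Y.dv f γ ∧
        (∀ l, ∃ G' ∈ Y.Lin (R.pb (D l)), G' (f i) = 0) ∧ (∀ B, R.pbc B i = 0) ∧
        s * (R.kap i + 1) ≤ n * γ i

end P277Z.S5
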